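import Crest.Agent.N334.AC.Nw.Core
import Crest.Agent.N334.AC.L.CT
import Crest.Agent.N334.AC.M7.M5

/-! # S0520 (helper74): tails from a twisted bound; ready-to-use forms of the Newton step -/

set_option autoImplicit false

open Finset Complex
open scoped Matrix.Norms.L2Operator Matrix

namespace Crest.Agent.N334.AC.Nw

section Tails

variable {d M : ℕ} [NeZero M] {G : Matrix (Tor d M) (Tor d M) ℂ} {O : Finset (Tor d M)} {θ Ag : ℝ}

theorem tw_nonneg (h : TW θ Ag (cmp G O)) : 0 ≤ Ag := (norm_nonneg _).trans h.norm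

theorem tw_entry (h : TW θ Ag (cmp G O)) {a b : Tor d M} (ha : a ∈ O) (hb : b ∈ O) :
    ‖G a b‖ ≤ Ag * Real.exp (-θ * tdist a b) := by
  simpa [cmp, ha, hb] using h.entry a b

theorem tw_entry_far (h : TW θ Ag (cmp G O)) (h0 : 0 ≤ θ) {a b : Tor d M} (ha : a ∈ O) (hb : b ∈ O)
    {D : ℕ} (hD : D ≤ tdist a b) : ‖G a b‖ ≤ Ag * Real.exp (-θ * D) := by
  refine (tw_entry h ha hb).trans (mul_le_mul_of_nonneg_left (Real.exp_le_exp.2 ?_) (tw_nonneg h))
  have : (D : ℝ) ≤ tdist a b := by exact_mod_cast hD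
  nlinarith

/-- `ℓ²` tail of a row -/
theorem tw_tail_sq (h : TW θ Ag (cmp G O)) (h0 : 0 < θ) (h1 : θ ≤ 1) {a : Tor d M} (ha : a ∈ O)
    {S : Finset (Tor d M)} (hS : S ⊆ O) {D : ℕ} (hD : ∀ y ∈ S, D ≤ tdist a y) :
    ∑ y ∈ S, ‖G a y‖ ^ 2 ≤ Ag ^ 2 * Real.exp (-θ * D) * (3 * d / θ) ^ d := by
  have hA := tw_nonneg h
  calc _ ≤ ∑ y ∈ S, Ag ^ 2 * Real.exp (-θ * D) * Real.exp (-θ * tdist y a) :=
        sum_le_sum fun y hy => by
          rw [sq, tdist_comm y a]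
          exact (mul_le_mul (tw_entry_far h h0.le ha (hS hy) (hD y hy)) (tw_entry h ha (hS hy))
            (norm_nonneg _) (by positivity)).trans (le_of_eq (by ring))
    _ ≤ ∑ y, Ag ^ 2 * Real.exp (-θ * D) * Real.exp (-θ * tdist y a) :=
        sum_le_sum_of_subset_of_nonneg (subset_univ _) fun _ _ _ => by positivity
    _ ≤ _ := by rw [← mul_sum]; gcongr; exact sum_exp_le h0 h1 a

/-- first moment of the squared row -/
theorem tw_moment (h : TW θ Ag (cmp G O)) (h0 : 0 < θ) (h1 : θ ≤ 1) {a : Tor d M} (ha : a ∈ O)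
    {S : Finset (Tor d M)} (hS : S ⊆ O) {m : ℝ} (hm : ∑ y ∈ S, ‖G a y‖ ^ 2 ≤ m) (D : ℕ) :
    ∑ y ∈ S, ‖G a y‖ ^ 2 * tdist a y ≤
      D * m + Ag ^ 2 * (2 / θ) * Real.exp (-θ * D / 2) * (3 * d / θ) ^ d := by
  have hA := tw_nonneg h
  have h2 : ∀ y ∈ S, ‖G a y‖ ^ 2 * tdist a y ≤ D * ‖G a y‖ ^ 2 +
      Ag ^ 2 * (2 / θ) * Real.exp (-θ * D / 2) * Real.exp (-θ * tdist y a) := by
    intro y hy
    by_cases hD : tdist a y ≤ D
    · have : (tdist a y : ℝ) ≤ D := by exact_mod_cast hD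
      have : ‖G a y‖ ^ 2 * tdist a y ≤ ‖G a y‖ ^ 2 * D := by gcongr
      have : 0 ≤ Ag ^ 2 * (2 / θ) * Real.exp (-θ * D / 2) * Real.exp (-θ * tdist y a) := by
        positivity
      linarith
    · have h3 : (D : ℝ) ≤ tdist a y := by exact_mod_cast (not_le.1 hD).le
      have h4 := mul_exp_le (t := tdist a y) h0
      have h5 : Real.exp (-(θ / 2) * tdist a y) ≤ Real.exp (-θ * D / 2) :=
        Real.exp_le_exp.2 (by nlinarith)
      have : 0 ≤ D * ‖G a y‖ ^ 2 := by positivity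
      calc _ ≤ (Ag * Real.exp (-θ * tdist a y)) ^ 2 * tdist a y := by
            gcongr; exact tw_entry h ha (hS hy)
        _ = Ag ^ 2 * (tdist a y * Real.exp (-θ * tdist a y)) * Real.exp (-θ * tdist y a) := by
            rw [tdist_comm y a]; ring
        _ ≤ Ag ^ 2 * (2 / θ * Real.exp (-θ * D / 2)) * Real.exp (-θ * tdist y a) := by
            exact mul_le_mul_of_nonneg_right (mul_le_mul_of_nonneg_left
              (h4.trans (mul_le_mul_of_nonneg_left h5 (by positivity))) (by positivity))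
              (by positivity)
        _ ≤ _ := by linarith
  refine (sum_le_sum h2).trans ?_
  rw [sum_add_distrib, ← mul_sum, ← mul_sum]
  gcongr
  exact (sum_le_sum_of_subset_of_nonneg (subset_univ _) fun _ _ _ => by positivity).trans
    (sum_exp_le h0 h1 a)

end Tails

section Gen

variable {ι : Type} [Fintype ι] [DecidableEq ι]
variable {A : Matrix ι ι ℂ} {w : ι → ℂ} {O : Finset ι} {C σ b : ℝ} {N : ℕ} {r : ι → ℝ} {x : ι}

theorem iota_eq (h : Adm A w) (x : ι) : ∑ y ∈ univ.erase x, gam w y * ‖Gm A w x y‖ ^ 2 =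
    (Gm A w x x).im - gam w x * ‖Gm A w x x‖ ^ 2 := by
  rw [← h.ward_diag x, ← add_sum_erase _ _ (mem_univ x)]; ring

theorem Pre.gam_le_im (h : Pre A w O C σ N r b) (hb : b ≤ 1 / 50) (hx : x ∈ O) :
    gam w x ≤ σ ^ 2 / 3 * (Gm A w x x).im * (11 / 10) := by
  have h1 := (abs_le.1 (h.e2_iota_le hx)).1
  have h2 := h.e2_le hx
  have h3 : 0 ≤ ∑ y ∈ univ.erase x, gam w y * ‖Gm A w x y‖ ^ 2 :=
    sum_nonneg fun y _ => mul_nonneg (h.adm.diss y) (by positivity)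
  have h4 := iota_eq h.adm x
  have hγ := h.gam_pos x hx
  have h5 : 0 ≤ gam w x * ‖Gm A w x x‖ ^ 2 := by positivity
  have h6 : e2 σ N r A w x * ∑ y ∈ univ.erase x, gam w y * ‖Gm A w x y‖ ^ 2 ≤
      7 / 20 * σ ^ 2 * (Gm A w x x).im := mul_le_mul h2 (by linarith) h3 (by positivity)
  have h7 : 0 ≤ σ ^ 2 * (Gm A w x x).im := mul_nonneg (by positivity) (by linarith)
  nlinarith

/-- lower bound of the leak of an unbiased port -/
theorem Pre.iota_ge (h : Pre A w O C σ N r b) (hx : x ∈ O) :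
    2 * gam w x ≤ σ ^ 2 * ((Gm A w x x).im - gam w x * ‖Gm A w x x‖ ^ 2) := by
  have h1 := (abs_le.1 (h.e2_iota_le hx)).1
  have h2 := h.e2_le hx
  have h3 : 0 ≤ ∑ y ∈ univ.erase x, gam w y * ‖Gm A w x y‖ ^ 2 :=
    sum_nonneg fun y _ => mul_nonneg (h.adm.diss y) (by positivity)
  rw [← iota_eq h.adm x]
  have hγ := h.gam_pos x hx
  have h6 := mul_le_mul_of_nonneg_right h2 h3
  have := h.b1
  nlinarith

theorem Pre.late' (h : Pre A w O C σ N r b) (him : ∀ x ∈ O, 1 / C ≤ (Gm A w x x).im)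
    (hb : 40000 * C ^ 2 * b ≤ σ ^ 2) :
    ∃ w', Post A w O C σ N r (4000 * C ^ 2 * b / σ ^ 2) w' := by
  refine h.late him (fun x hx => h.gam_le_im ?_ hx) hb
  obtain ⟨-, -, h3⟩ := sml_Cσ h.sml
  have := h.sml.C1
  have := h.sml.σ0
  have := h.b0
  have : b ≤ C ^ 2 * b := le_mul_of_one_le_left h.b0 (by nlinarith)
  nlinarith

theorem Post.mono {δ δ' : ℝ} {w' : ι → ℂ} (h : Post A w O C σ N r δ w') (hC : 0 ≤ C) (hδ : δ ≤ δ')
    (hδ' : δ' ≤ 1 / 10) : Post A w O C σ N r δ' w' :=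
  ⟨⟨h.1.adm, h.1.δ0.trans hδ, hδ', fun x => (h.1.le x).trans
    (mul_le_mul_of_nonneg_right hδ (h.1.adm.diss x))⟩, h.2.1, fun x hx => (h.2.2 x hx).trans (by
      have := h.1.δ0; gcongr)⟩

/-- mass of a row on a set of ports after the jump -/
theorem jmp_mass {w' : ι → ℂ} {δ c : ℝ} (h : Jmp A w w' δ) {a : ι} (ha : (Gm A w a a).im ≤ c)
    (S : Finset ι) :
    |∑ b ∈ S, gam w' b * ‖Gm A w' a b‖ ^ 2 - ∑ b ∈ S, gam w b * ‖Gm A w a b‖ ^ 2| ≤ 5 * δ * c := by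
  have hδ := h.δ0
  have hδ1 := h.δ1
  have h1 := (M5.sum_gam_le h.adm S a).trans ha
  have h2 : ∑ b ∈ S, gam w b * ‖Gm A w' a b - Gm A w a b‖ ^ 2 ≤ 2 * δ ^ 2 * c :=
    (sum_le_sum_of_subset_of_nonneg (subset_univ S) fun b _ _ =>
      mul_nonneg (h.adm.diss b) (by positivity)).trans ((h.row a).trans (by gcongr))
  have hc : 0 ≤ c := le_trans (sum_nonneg fun b _ => mul_nonneg (h.adm.diss b) (by positivity)) h1
  rcases hδ.eq_or_lt with h0 | h0
  · have : w' = w := funext fun x => by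
      have := h.le x
      rw [← h0, zero_mul] at this
      exact sub_eq_zero.1 (norm_le_zero_iff.1 this)
    rw [this, sub_self, abs_zero]; positivity
  have key : ∀ b ∈ S, |gam w' b * ‖Gm A w' a b‖ ^ 2 - gam w b * ‖Gm A w a b‖ ^ 2| ≤
      (5 / 2) * δ * (gam w b * ‖Gm A w a b‖ ^ 2) +
        (5 / 4) / δ * (gam w b * ‖Gm A w' a b - Gm A w a b‖ ^ 2) := by
    intro b _
    have hγ := h.adm.diss b
    obtain ⟨g1, g2⟩ := h.gam_le b
    set p := ‖Gm A w a b‖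
    set q := ‖Gm A w' a b - Gm A w a b‖
    set p' := ‖Gm A w' a b‖
    have hp : 0 ≤ p := norm_nonneg _
    have hq : 0 ≤ q := norm_nonneg _
    have hp' : 0 ≤ p' := norm_nonneg _
    have e1 : |p' - p| ≤ q := abs_norm_sub_norm_le _ _
    obtain ⟨e2, e3⟩ := abs_le.1 e1
    have am : 2 * p * q ≤ δ * p ^ 2 + q ^ 2 / δ := by
      have : 0 ≤ (δ * p - q) ^ 2 / δ := by positivity
      have e : (δ * p - q) ^ 2 / δ = δ * p ^ 2 - 2 * p * q + q ^ 2 / δ := by field_simp; ring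
      linarith
    have hqq : q ^ 2 ≤ q ^ 2 / δ / 10 := by
      rw [div_div, le_div_iff₀ (by positivity)]; nlinarith [sq_nonneg q]
    have up : p' ^ 2 ≤ (1 + δ) * p ^ 2 + 11 / 10 * (q ^ 2 / δ) := by nlinarith
    have lo : (1 - δ) * p ^ 2 - q ^ 2 / δ ≤ p' ^ 2 := by
      by_cases hpq : q ≤ p
      · nlinarith
      · have : p ^ 2 ≤ q ^ 2 := by push Not at hpq; gcongr
        have : 0 ≤ q ^ 2 / δ := by positivity
        nlinarith [sq_nonneg p', mul_nonneg h0.le (sq_nonneg p)]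
    have hr : 0 ≤ q ^ 2 / δ := by positivity
    have e4 : (5 / 4) / δ * (gam w b * q ^ 2) = 5 / 4 * (gam w b * (q ^ 2 / δ)) := by ring
    rw [e4, abs_le]
    have u1 : gam w' b * p' ^ 2 ≤ (1 + δ) * gam w b * ((1 + δ) * p ^ 2 + 11 / 10 * (q ^ 2 / δ)) :=
      mul_le_mul g2 up (by positivity) (by positivity)
    have l1 : (1 - δ) * gam w b * ((1 - δ) * p ^ 2 - q ^ 2 / δ) ≤ gam w' b * p' ^ 2 :=
      (mul_le_mul_of_nonneg_left lo (mul_nonneg (by linarith) hγ)).trans (by gcongr)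
    have a1 : 0 ≤ gam w b * p ^ 2 := by positivity
    have a2 : 0 ≤ gam w b * (q ^ 2 / δ) := by positivity
    constructor <;> nlinarith [mul_nonneg h0.le a1, mul_nonneg h0.le a2,
      mul_nonneg (mul_nonneg h0.le h0.le) a1]
  rw [← sum_sub_distrib]
  refine (abs_sum_le_sum_abs _ _).trans ((sum_le_sum key).trans ?_)
  rw [sum_add_distrib, ← mul_sum, ← mul_sum]
  calc _ ≤ (5 / 2) * δ * c + (5 / 4) / δ * (2 * δ ^ 2 * c) := by gcongr
    _ = _ := by field_simp; ring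

end Gen

/-- early retuning from a global bound on the Schur square and a twisted bound -/
theorem Pre.early' {d M : ℕ} [NeZero M] {A : Matrix (Tor d M) (Tor d M) ℂ} {w : Tor d M → ℂ}
    {O O' : Finset (Tor d M)} {C σ b : ℝ} {N : ℕ} {r : Tor d M → ℝ} (h : Pre A w O C σ N r b)
    {g b7 b2 θ Ag : ℝ} {L D n : ℕ} (hg : 0 < g) (hγ : ∀ x ∈ O, g ≤ gam w x ∧ gam w x ≤ 2 * g)
    (hO : O ⊆ O') (tw : TW θ Ag (cmp (Gm A w) O')) (h0 : 0 < θ) (h1 : θ ≤ 1) (hn : 1 ≤ n)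
    (hL : 0 < L) (hblk : ‖cmp (Matrix.hadamard (Gm A w) (Gm A w)) O‖ ≤ b7)
    (hb2 : σ ^ 2 / 2 * (b7 + C ^ 2) ≤ b2) (hb : 80 * n * b ≤ 1)
    (hD : 8 * n * d * σ ^ 2 *
      (D * (C / g) + Ag ^ 2 * (2 / θ) * Real.exp (-θ * D / 2) * (3 * d / θ) ^ d) ≤ L)
    (h3 : 64 * vol d M (2 * n * L) * b2 ^ (2 * n) ≤ 1) :
    ∃ w', Post A w O C σ N r (8 * n * b) w' := by
  have hC := h.sml.C1
  have hL' : (0 : ℝ) < L := by exact_mod_cast hL
  have sz : M7.Sz A w O g C := ⟨h.adm, hg, by linarith, fun x hx => (hγ x hx).1,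
    fun x hx => (im_le_norm _).trans (h.G_le' hx)⟩
  refine h.early (e' := σ ^ 2 / 2 *
    (D * (C / g) + Ag ^ 2 * (2 / θ) * Real.exp (-θ * D / 2) * (3 * d / θ) ^ d) / L) (L := L)
    hg hγ (by positivity) hn (fun p => (norm_cmp_mono _ inter_subset_left).trans hblk) hb2
    (fun x hx => ?_) hb ?_ h3
  · rw [div_mul_cancel₀ _ hL'.ne']
    gcongr
    exact tw_moment tw h0 h1 (hO hx) hO (sz.row hx subset_rfl) D
  · rw [mul_div_assoc', div_le_one hL']
    linarith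

end Crest.Agent.N334.AC.Nw
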