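import Crest.Agent.N334.AC.L.Tau
import Crest.Agent.N334.AC.L.Jump
import Crest.Agent.N334.AC.L.Close
import Crest.Agent.N334.AC.L.Newton

/-! # S0520 (helper74): the Newton (retuning) step, pure form -/

set_option autoImplicit false

open Finset Complex
open scoped Matrix.Norms.L2Operator Matrix

namespace Crest.Agent.N334.AC.Nw

section Gen

variable {ι : Type} [Fintype ι] [DecidableEq ι]

/-- bias of the port `x` -/
noncomputable def bt (σ : ℝ) (N : ℕ) (r : ι → ℝ) (A : Matrix ι ι ℂ) (w : ι → ℂ) (x : ι) : ℂ :=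
  beta σ N (r x) (Gm A w x x) (w x)

/-- `E τ²` at the port `x` -/
noncomputable def et (σ : ℝ) (N : ℕ) (r : ι → ℝ) (A : Matrix ι ι ℂ) (w : ι → ℂ) (x : ι) : ℂ :=
  avgV N fun k => tau (Gm A w x x) (w x) (val σ N (r x) k) ^ 2

/-- `E |τ|²` at the port `x` -/
noncomputable def e2 (σ : ℝ) (N : ℕ) (r : ι → ℝ) (A : Matrix ι ι ℂ) (w : ι → ℂ) (x : ι) : ℝ :=
  avg N fun k => ‖tau (Gm A w x x) (w x) (val σ N (r x) k)‖ ^ 2

/-- matrix of the linearised retuning problem -/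
noncomputable def XN (σ : ℝ) (N : ℕ) (r : ι → ℝ) (A : Matrix ι ι ℂ) (w : ι → ℂ) :
    Matrix ι ι ℂ := fun x y =>
  if x = y then 0 else et σ N r A w x / (1 - 2 * bt σ N r A w x * Gm A w x x) * Gm A w x y ^ 2

/-- state before the retuning of the ports of `O`; relative bias `≤ b` -/
structure Pre (A : Matrix ι ι ℂ) (w : ι → ℂ) (O : Finset ι) (C σ : ℝ) (N : ℕ) (r : ι → ℝ)
    (b : ℝ) : Prop where
  adm : Adm A w
  sml : Sml C σ N
  r01 : ∀ x, 0 ≤ r x ∧ r x ≤ 1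
  gam_pos : ∀ x ∈ O, 0 < gam w x
  G_le : ∀ x ∈ O, ‖Gm A w x x‖ ≤ C / 2
  w_le : ∀ x ∈ O, ‖w x‖ ≤ C * σ ^ 2 / 2
  b0 : 0 ≤ b
  b1 : b ≤ 1 / 10
  bias : ∀ x ∈ O, ‖bt σ N r A w x‖ ≤ b * gam w x

variable {A : Matrix ι ι ℂ} {w : ι → ℂ} {O : Finset ι} {C σ b : ℝ} {N : ℕ} {r : ι → ℝ} {x : ι}

theorem sml_Cσ (h : Sml C σ N) : C * σ ≤ 1 / 1000 ∧ C ^ 2 * σ ≤ 1 / 1000 ∧ σ ≤ 1 / 1000 := by
  have h1 := h.C1
  have h2 := h.σ0
  have h3 := h.σ1
  have h4 : C ^ 2 * σ ≤ C ^ 3 * σ := by gcongr; norm_num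
  have h5 : C * σ ≤ C ^ 2 * σ := by gcongr; nlinarith
  have h6 : σ ≤ C * σ := by nlinarith
  exact ⟨by linarith, by linarith, by linarith⟩

theorem Pre.G_le' (h : Pre A w O C σ N r b) (hx : x ∈ O) : ‖Gm A w x x‖ ≤ C := by
  linarith [h.G_le x hx, h.sml.C1]

theorem Pre.w_le' (h : Pre A w O C σ N r b) (hx : x ∈ O) : ‖w x‖ ≤ C * σ ^ 2 := by
  have := h.sml.C1
  have : 0 ≤ C * σ ^ 2 := by positivity
  linarith [h.w_le x hx]

theorem Pre.gam_le (h : Pre A w O C σ N r b) (hx : x ∈ O) : gam w x ≤ C * σ ^ 2 / 2 :=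
  le_trans ((neg_le_abs _).trans (abs_im_le_norm _)) (h.w_le x hx)

theorem Pre.bG (h : Pre A w O C σ N r b) (hx : x ∈ O) :
    ‖2 * bt σ N r A w x * Gm A w x x‖ ≤ b / 1000 := by
  obtain ⟨h1, -, h2⟩ := sml_Cσ h.sml
  have := h.sml.C1
  have := h.sml.σ0
  have := h.b0
  have h3 := h.gam_le hx
  have h4 := h.gam_pos x hx
  rw [norm_mul, norm_mul, Complex.norm_two]
  calc _ ≤ 2 * (b * gam w x) * (C / 2) := by gcongr; exacts [h.bias x hx, h.G_le x hx]
    _ ≤ 2 * (b * (C * σ ^ 2 / 2)) * (C / 2) := by gcongr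
    _ = b / 2 * (C * σ) ^ 2 := by ring
    _ ≤ b / 2 * (1 / 1000) ^ 2 := by gcongr
    _ ≤ _ := by linarith

theorem Pre.den (h : Pre A w O C σ N r b) (hx : x ∈ O) :
    1 - b / 1000 ≤ ‖1 - 2 * bt σ N r A w x * Gm A w x x‖ := by
  have := norm_sub_norm_le (1 : ℂ) (2 * bt σ N r A w x * Gm A w x x)
  rw [norm_one] at this
  linarith [h.bG hx]

theorem Pre.den_ne (h : Pre A w O C σ N r b) (hx : x ∈ O) :
    1 - 2 * bt σ N r A w x * Gm A w x x ≠ 0 := by
  intro h0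
  have := h.den hx
  rw [h0, norm_zero] at this
  linarith [h.b1]

theorem Pre.div_le (h : Pre A w O C σ N r b) (hx : x ∈ O) (z : ℂ) :
    ‖z / (1 - 2 * bt σ N r A w x * Gm A w x x)‖ ≤ (1 + b) * ‖z‖ := by
  have h1 := h.den hx
  have := h.b0
  have := h.b1
  rw [norm_div, div_le_iff₀ (by linarith)]
  calc ‖z‖ = 1 * ‖z‖ := (one_mul _).symm
    _ ≤ ((1 + b) * ‖1 - 2 * bt σ N r A w x * Gm A w x x‖) * ‖z‖ := by gcongr; nlinarith
    _ = _ := by ring

omit [Fintype ι] [DecidableEq ι] in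
theorem et_le' {g w : ℂ} {r : ℝ} : ‖avgV N fun k => tau g w (val σ N r k) ^ 2‖ ≤
    avg N fun k => ‖tau g w (val σ N r k)‖ ^ 2 := by
  refine (norm_avgV_le N fun k => tau g w (val σ N r k) ^ 2).trans (avg_mono fun k _ => ?_)
  exact (norm_pow _ _).le

theorem et_le : ‖et σ N r A w x‖ ≤ e2 σ N r A w x := et_le'

theorem e2_nonneg : 0 ≤ e2 σ N r A w x := (norm_nonneg _).trans et_le

theorem Pre.e2_le (h : Pre A w O C σ N r b) (hx : x ∈ O) : e2 σ N r A w x ≤ 7 / 20 * σ ^ 2 := by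
  have := h.sml.tau_sq (h.r01 x) (h.G_le' hx) (h.w_le' hx)
  unfold e2; linarith

/-- `E|τ|² ι = γ - Im β - 2γ Re (β G)` -/
theorem Pre.e2_iota (h : Pre A w O C σ N r b) (hx : x ∈ O) :
    e2 σ N r A w x * ∑ y ∈ univ.erase x, gam w y * ‖Gm A w x y‖ ^ 2 =
      gam w x - (bt σ N r A w x).im - gam w x * (2 * bt σ N r A w x * Gm A w x x).re := by
  have hγ := h.gam_pos x hx
  have hN := h.sml.N_pos
  have hmu : mu (Km A w) x = gam w x * ∑ y ∈ univ.erase x, gam w y * ‖Gm A w x y‖ ^ 2 := by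
    rw [mu, mul_sum]
    exact sum_congr rfl fun y _ => by rw [h.adm.K_sq, mul_assoc]
  have h1 : ∀ k < N, ‖tau (Gm A w x x) (w x) (val σ N (r x) k)‖ ^ 2 *
      ∑ y ∈ univ.erase x, gam w y * ‖Gm A w x y‖ ^ 2 =
      gam w x + (tau (Gm A w x x) (w x) (val σ N (r x) k) *
        (I * (1 + 2 * I * (gam w x * Gm A w x x)))).re := by
    intro k hk
    have h2 := h.adm.tau_id (h.sml.den (h.G_le' hx) (h.w_le' hx)
      (abs_val_le h.sml.σ0.le (h.r01 x) hk)) hγ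
    rw [hmu, norm_div, Complex.norm_real, Real.norm_of_nonneg hγ.le] at h2
    have h3 : Sm (Km A w) x x = 1 + 2 * I * (gam w x * Gm A w x x) := by
      simp [Sm, h.adm.K_diag]
    rw [h3] at h2
    set t := tau (Gm A w x x) (w x) (val σ N (r x) k)
    have h4 : I * (t / (gam w x : ℝ)) * (1 + 2 * I * (gam w x * Gm A w x x)) =
        t * (I * (1 + 2 * I * (gam w x * Gm A w x x))) / (gam w x : ℝ) := by ring
    rw [h4, Complex.div_ofReal_re] at h2
    generalize (t * (I * (1 + 2 * I * (gam w x * Gm A w x x)))).re = z at h2 ⊢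
    generalize ∑ y ∈ univ.erase x, gam w y * ‖Gm A w x y‖ ^ 2 = S at h2 ⊢
    field_simp at h2
    linarith
  have h2 : e2 σ N r A w x * ∑ y ∈ univ.erase x, gam w y * ‖Gm A w x y‖ ^ 2 =
      avg N fun k => gam w x + (tau (Gm A w x x) (w x) (val σ N (r x) k) *
        (I * (1 + 2 * I * (gam w x * Gm A w x x)))).re := by
    rw [e2, mul_comm, ← avg_mul]
    exact le_antisymm (avg_mono fun k hk => by rw [mul_comm, h1 k hk])
      (avg_mono fun k hk => by rw [← h1 k hk, mul_comm])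
  rw [h2, avg_add, avg_const hN, avg_re, avgV_mul]
  change gam w x + (bt σ N r A w x * _).re = _
  simp only [mul_re, mul_im, I_re, I_im, add_re, add_im, one_re, one_im, re_ofNat, im_ofNat,
    ofReal_re, ofReal_im]
  ring

theorem Pre.e2_iota_le (h : Pre A w O C σ N r b) (hx : x ∈ O) :
    |e2 σ N r A w x * ∑ y ∈ univ.erase x, gam w y * ‖Gm A w x y‖ ^ 2 - gam w x| ≤
      2 * b * gam w x := by
  rw [h.e2_iota hx]
  have h1 := abs_le.1 ((abs_im_le_norm _).trans (h.bias x hx))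
  have h2 := abs_le.1 ((abs_re_le_norm _).trans (h.bG hx))
  have hγ := h.gam_pos x hx
  have := h.b0
  rw [abs_le]
  constructor <;> nlinarith [h1.1, h1.2, h2.1, h2.2]

theorem Pre.XN_le (h : Pre A w O C σ N r b) (hx : x ∈ O) (y : ι) :
    ‖XN σ N r A w x y‖ ≤ σ ^ 2 / 2 * ‖Gm A w x y‖ ^ 2 := by
  unfold XN
  split_ifs
  · rw [norm_zero]; positivity
  rw [norm_mul, norm_pow]
  gcongr
  have h1 := h.div_le hx (et σ N r A w x)
  have h2 := (et_le (σ := σ) (N := N) (r := r) (A := A) (w := w) (x := x)).trans (h.e2_le hx)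
  have := h.b1
  nlinarith [norm_nonneg (et σ N r A w x), sq_nonneg σ]

theorem Pre.XN_row (h : Pre A w O C σ N r b) (hx : x ∈ O) {κ : ℝ} (hκ0 : 0 ≤ κ)
    (hκ : ‖et σ N r A w x‖ ≤ κ * e2 σ N r A w x) :
    ∑ y ∈ O, ‖XN σ N r A w x y‖ * gam w y ≤ κ * (1 + 4 * b) * gam w x := by
  have hb := h.b0
  have hb1 := h.b1
  have h0 := e2_nonneg (σ := σ) (N := N) (r := r) (A := A) (w := w) (x := x)
  have h1 : ∑ y ∈ O, ‖XN σ N r A w x y‖ * gam w y ≤ (1 + b) * κ *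
      (e2 σ N r A w x * ∑ y ∈ univ.erase x, gam w y * ‖Gm A w x y‖ ^ 2) := by
    rw [← sum_erase (a := x) O (by simp [XN]), mul_sum, mul_sum]
    refine le_trans (sum_le_sum fun y hy => ?_) (sum_le_sum_of_subset_of_nonneg
      (erase_subset_erase x (subset_univ O)) fun y _ _ => by have := h.adm.diss y; positivity)
    have := h.adm.diss y
    rw [XN, if_neg (ne_of_mem_erase hy).symm, norm_mul, norm_pow]
    calc _ ≤ (1 + b) * (κ * e2 σ N r A w x) * ‖Gm A w x y‖ ^ 2 * gam w y := by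
          gcongr
          exact (h.div_le hx _).trans (by gcongr)
      _ = _ := by ring
  have h2 := (abs_le.1 (h.e2_iota_le hx)).2
  have hγ := h.gam_pos x hx
  calc _ ≤ _ := h1
    _ ≤ (1 + b) * κ * ((1 + 2 * b) * gam w x) :=
        mul_le_mul_of_nonneg_left (by linarith) (by positivity)
    _ = κ * ((1 + b) * (1 + 2 * b)) * gam w x := by ring
    _ ≤ _ := by gcongr; nlinarith

theorem Pre.XN_blk (h : Pre A w O C σ N r b) {Q : Finset ι} (hQ : Q ⊆ O) :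
    ‖cmp (XN σ N r A w) Q‖ ≤
      σ ^ 2 / 2 * (‖cmp (Matrix.hadamard (Gm A w) (Gm A w)) Q‖ + C ^ 2) := by
  have e : cmp (XN σ N r A w) Q = Matrix.diagonal (fun x => if x ∈ Q then
      et σ N r A w x / (1 - 2 * bt σ N r A w x * Gm A w x x) else 0) *
      (cmp (Matrix.hadamard (Gm A w) (Gm A w)) Q -
        Matrix.diagonal fun x => if x ∈ Q then Gm A w x x ^ 2 else 0) := by
    ext x y
    rw [Matrix.diagonal_mul, Matrix.sub_apply]
    by_cases hxy : x = y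
    · subst hxy
      by_cases hx : x ∈ Q <;> simp [cmp, XN, hx, sq]
    · by_cases hx : x ∈ Q <;> by_cases hy : y ∈ Q <;> simp [cmp, XN, hx, hy, hxy, sq]
  have hC := h.sml.C1
  rw [e]
  refine (norm_mul_le _ _).trans (mul_le_mul (norm_diagonal_le (by positivity) fun x => ?_)
    ((norm_sub_le _ _).trans (add_le_add le_rfl (norm_diagonal_le (by positivity) fun x => ?_)))
    (norm_nonneg _) (by positivity))
  · split_ifs with hx
    · have h1 := h.div_le (hQ hx) (et σ N r A w x)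
      have h2 := (et_le (σ := σ) (N := N) (r := r) (A := A) (w := w) (x := x)).trans
        (h.e2_le (hQ hx))
      have := h.b1
      nlinarith [norm_nonneg (et σ N r A w x), sq_nonneg σ]
    · rw [norm_zero]; positivity
  · split_ifs with hx
    · rw [norm_pow]; gcongr; exact h.G_le' (hQ hx)
    · rw [norm_zero]; positivity

/-- result of a retuning of relative size `δ` -/
def Post (A : Matrix ι ι ℂ) (w : ι → ℂ) (O : Finset ι) (C σ : ℝ) (N : ℕ) (r : ι → ℝ) (δ : ℝ)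
    (w' : ι → ℂ) : Prop :=
  Jmp A w w' δ ∧ (∀ x, x ∉ O → w' x = w x) ∧ ∀ x ∈ O, ‖bt σ N r A w' x‖ ≤ δ ^ 2 * C * σ ^ 2

theorem Pre.of_solve (h : Pre A w O C σ N r b) {δ : ℝ} (hδ0 : 0 ≤ δ) (hδ : δ ≤ 1 / 10)
    {Δ : ι → ℂ} (hs : Supp Δ O) (hΔ : ∀ x ∈ O, Δ x - ∑ y ∈ O, XN σ N r A w x y * Δ y =
      bt σ N r A w x / (1 - 2 * bt σ N r A w x * Gm A w x x) ∧ ‖Δ x‖ ≤ δ * gam w x) :
    Post A w O C σ N r δ (w + Δ) := by
  have hJ : Jmp A w (w + Δ) δ := ⟨h.adm, hδ0, hδ, fun x => by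
    by_cases hx : x ∈ O
    · simpa using (hΔ x hx).2
    · have := h.adm.diss x
      simp only [Pi.add_apply, add_sub_cancel_left, hs x hx, norm_zero]; positivity⟩
  refine ⟨hJ, fun x hx => by simp [hs x hx], fun x hx => ?_⟩
  obtain ⟨c1, c2, c3⟩ := sml_Cσ h.sml
  have hC := h.sml.C1
  have hσ := h.sml.σ0
  have him : |(Gm A w x x).im| ≤ C / 2 := (abs_im_le_norm _).trans (h.G_le x hx)
  have hdg : ‖Gm A (w + Δ) x x - Gm A w x x‖ ≤ δ * C := by
    refine abs_le_of_sq_le_sq' ((hJ.entry x x).trans ?_) (by positivity) |>.2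
    have : (Gm A w x x).im * (Gm A w x x).im ≤ (C / 2) ^ 2 := by
      rw [← sq, ← sq_abs]; gcongr
    nlinarith [sq_nonneg δ, sq_nonneg (δ * C)]
  have hdw : ‖(w + Δ) x - w x‖ ≤ δ * (C * σ ^ 2 / 2) :=
    (hJ.le x).trans (by gcongr; exact h.gam_le hx)
  have hg' : ‖Gm A (w + Δ) x x‖ ≤ C := by
    have := norm_sub_norm_le (Gm A (w + Δ) x x) (Gm A w x x)
    nlinarith [h.G_le x hx]
  have hw' : ‖(w + Δ) x‖ ≤ C * σ ^ 2 := by
    have := norm_sub_norm_le ((w + Δ) x) (w x)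
    have : 0 ≤ C * σ ^ 2 := by positivity
    nlinarith [h.w_le x hx]
  have h1 := h.sml.beta_taylor (h.r01 x) (h.G_le' hx) hg' (h.w_le' hx) hw'
  have h2 := hJ.second x
  change ‖bt σ N r A (w + Δ) x - (bt σ N r A w x - (1 - 2 * bt σ N r A w x * Gm A w x x +
    et σ N r A w x * Gm A w x x ^ 2) * ((w + Δ) x - w x) -
    et σ N r A w x * (Gm A (w + Δ) x x - Gm A w x x))‖ ≤ _ at h1
  have h3 : bt σ N r A w x - (1 - 2 * bt σ N r A w x * Gm A w x x +
      et σ N r A w x * Gm A w x x ^ 2) * ((w + Δ) x - w x) -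
      et σ N r A w x * (Gm A (w + Δ) x x - Gm A w x x) =
      -(et σ N r A w x * (Gm A (w + Δ) x x - Gm A w x x +
        ∑ y, Gm A w x y ^ 2 * ((w + Δ) y - w y))) := by
    have h4 := (hΔ x hx).1
    have h5 : ∑ y ∈ O, XN σ N r A w x y * Δ y =
        et σ N r A w x / (1 - 2 * bt σ N r A w x * Gm A w x x) *
          (∑ y, Gm A w x y ^ 2 * Δ y - Gm A w x x ^ 2 * Δ x) := by
      rw [← add_sum_erase _ _ (mem_univ x), add_sub_cancel_left, mul_sum,
        sum_subset (subset_univ O) (fun y _ hy => by simp [hs y hy]),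
        ← sum_erase (a := x) univ (by simp [XN])]
      exact sum_congr rfl fun y hy => by rw [XN, if_neg (ne_of_mem_erase hy).symm, mul_assoc]
    rw [h5] at h4
    have h6 := h.den_ne hx
    field_simp at h4
    simp only [Pi.add_apply, add_sub_cancel_left]
    linear_combination -h4
  rw [h3, sub_neg_eq_add] at h1
  have h4 : ‖et σ N r A w x * (Gm A (w + Δ) x x - Gm A w x x +
      ∑ y, Gm A w x y ^ 2 * ((w + Δ) y - w y))‖ ≤ 7 / 20 * σ ^ 2 * (2 * δ ^ 2 * (C / 2)) := by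
    rw [norm_mul]
    gcongr
    · exact et_le.trans (h.e2_le hx)
    · exact h2.trans (by gcongr; exact (le_abs_self _).trans him)
  have h5 := norm_sub_le (bt σ N r A (w + Δ) x + et σ N r A w x * (Gm A (w + Δ) x x - Gm A w x x +
      ∑ y, Gm A w x y ^ 2 * ((w + Δ) y - w y))) (et σ N r A w x * (Gm A (w + Δ) x x - Gm A w x x +
      ∑ y, Gm A w x y ^ 2 * ((w + Δ) y - w y)))
  rw [add_sub_cancel_right] at h5
  have h6 : 8 * C * ‖(w + Δ) x - w x‖ ^ 2 + 16 * σ * ‖(w + Δ) x - w x‖ *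
      ‖Gm A (w + Δ) x x - Gm A w x x‖ + 8 * σ ^ 3 * ‖Gm A (w + Δ) x x - Gm A w x x‖ ^ 2 ≤
      8 * C * (δ * (C * σ ^ 2 / 2)) ^ 2 + 16 * σ * (δ * (C * σ ^ 2 / 2)) * (δ * C) +
        8 * σ ^ 3 * (δ * C) ^ 2 := by gcongr
  have h7 : 8 * C * (δ * (C * σ ^ 2 / 2)) ^ 2 + 16 * σ * (δ * (C * σ ^ 2 / 2)) * (δ * C) +
      8 * σ ^ 3 * (δ * C) ^ 2 = δ ^ 2 * C * σ ^ 2 * (2 * (C * σ) ^ 2 + 16 * (C * σ)) := by ring
  have h8 : 2 * (C * σ) ^ 2 + 16 * (C * σ) ≤ 1 / 2 := by nlinarith [mul_pos (by linarith : 0 < C) hσ]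
  have h9 : 0 ≤ δ ^ 2 * C * σ ^ 2 := by positivity
  nlinarith

/-- late retuning: the gap `|E τ²| ≤ (1 - cσ²) E|τ|²` -/
theorem Pre.late (h : Pre A w O C σ N r b) (him : ∀ x ∈ O, 1 / C ≤ (Gm A w x x).im)
    (hγ : ∀ x ∈ O, gam w x ≤ σ ^ 2 / 3 * (Gm A w x x).im * (11 / 10))
    (hb : 40000 * C ^ 2 * b ≤ σ ^ 2) :
    ∃ w', Post A w O C σ N r (4000 * C ^ 2 * b / σ ^ 2) w' := by
  have hC := h.sml.C1
  have hσ := h.sml.σ0
  have hb0 := h.b0
  obtain ⟨c1, c2, c3⟩ := sml_Cσ h.sml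
  set s := σ ^ 2 / (1000 * C ^ 2) with hs
  have hs0 : 0 < s := by positivity
  have hs1 : s ≤ 1 := by rw [hs, div_le_one (by positivity)]; nlinarith
  have hbs : 40 * b ≤ s := by rw [hs, le_div_iff₀ (by positivity)]; linarith
  obtain ⟨Δ, h1, h2⟩ := solve_late (O := O) (X := XN σ N r A w) (γ := gam w) (q := 1 - s / 2)
    (b := 2 * b) (β := fun x => bt σ N r A w x / (1 - 2 * bt σ N r A w x * Gm A w x x))
    h.gam_pos (by linarith) (by positivity) (fun x hx => by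
      refine (h.XN_row hx (κ := 1 - s) (by linarith) (h.sml.tau_gap (h.r01 x) (h.G_le' hx)
        (h.w_le' hx) (him x hx) (h.adm.diss x) (hγ x hx))).trans ?_
      have := h.gam_pos x hx
      gcongr; nlinarith) fun x hx => (h.div_le hx _).trans (by
        have := h.bias x hx
        have := h.b1
        nlinarith [norm_nonneg (bt σ N r A w x)])
  have e : 2 * b / (1 - (1 - s / 2)) = 4000 * C ^ 2 * b / σ ^ 2 := by
    rw [hs]; field_simp; ring
  rw [e] at h2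
  exact ⟨_, h.of_solve (by positivity) (by rw [div_le_iff₀ (by positivity)]; linarith) h1 h2⟩

end Gen

/-- early retuning: two-norm lemma -/
theorem Pre.early {d M : ℕ} [NeZero M] {A : Matrix (Tor d M) (Tor d M) ℂ} {w : Tor d M → ℂ}
    {O : Finset (Tor d M)} {C σ b : ℝ} {N : ℕ} {r : Tor d M → ℝ} (h : Pre A w O C σ N r b)
    {g e' b7 b2 : ℝ} {L n : ℕ} (hg : 0 < g) (hγ : ∀ x ∈ O, g ≤ gam w x ∧ gam w x ≤ 2 * g)
    (he' : 0 ≤ e') (hn : 1 ≤ n)
    (hblk : ∀ p, ‖cmp (Matrix.hadamard (Gm A w) (Gm A w)) (O ∩ tball p L)‖ ≤ b7)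
    (hb2 : σ ^ 2 / 2 * (b7 + C ^ 2) ≤ b2)
    (hdec : ∀ x ∈ O, σ ^ 2 / 2 * ∑ y ∈ O, ‖Gm A w x y‖ ^ 2 * tdist x y ≤ e' * L)
    (h1 : 80 * n * b ≤ 1) (h2 : 16 * n * d * e' ≤ 1)
    (h3 : 64 * vol d M (2 * n * L) * b2 ^ (2 * n) ≤ 1) :
    ∃ w', Post A w O C σ N r (8 * n * b) w' := by
  have hb0 := h.b0
  have hb7 : 0 ≤ b7 := (norm_nonneg _).trans (hblk 0)
  obtain ⟨Δ, h4, h5⟩ := solve_early (O := O) (X := XN σ N r A w) (γ := gam w) (e := 4 * b)
    (b := 2 * b) (b2 := b2)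
    (β := fun x => bt σ N r A w x / (1 - 2 * bt σ N r A w x * Gm A w x x))
    hg hγ (by positivity) he' (by positivity) (le_trans (by positivity) hb2) hn
    (fun x hx => by simpa using h.XN_row hx (κ := 1) zero_le_one (by simpa using et_le))
    (fun p => (h.XN_blk inter_subset_left).trans (le_trans (by gcongr; exact hblk p) hb2))
    (fun x hx => le_trans (by
      rw [mul_sum]
      refine sum_le_sum fun y _ => ?_
      rw [← mul_assoc]
      gcongr; exact h.XN_le hx y) (hdec x hx))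
    (by nlinarith) h2 h3 fun x hx => (h.div_le hx _).trans (by
        have := h.bias x hx
        have := h.b1
        nlinarith [norm_nonneg (bt σ N r A w x)])
  have e : 4 * (n : ℝ) * (2 * b) = 8 * n * b := by ring
  rw [e] at h5
  exact ⟨_, h.of_solve (by positivity) (by linarith) h4 h5⟩

end Crest.Agent.N334.AC.Nw
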